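import Mathlib
import Crest.Agent.N265.Ch.Top2

/-!
# Row 265, CHOICE, part 2 (helper2): numerics of line bundles on a smooth projective surface

`V : SmV k F 2`.
* `ip V a b` intersection number, `dg V a = a.h`; bilinearity, `chi_add` (Riemann-Roch without `K`),
  `chi_neg`, `chi_tw` (Hilbert polynomial), `hodge`, `hodge_eq`.
* `HasSec V D` (effective classes): `hasSec_iff`, `HasSec.eff`, `dg_nonneg`, `h2_le`.
* linear equivalence: `hh_div`, `chi_div`, `ip_div`.
* `h0_O : h⁰(O) = 1` (`k` algebraically closed); `PgQ V` (`h¹(O) = h²(O) = 0`): `chi_zero`,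
  `h2_eff`, `chi_eff`.
-/

set_option autoImplicit false
set_option linter.unusedSectionVars false

noncomputable section

namespace Crest.Agent.N265.Ch

open Crest.Agent.R274
open Cx_781 Defs_781 Ses_781 Lat_781 Ser_781 SnapA_99 SnapB_99 SnapE_99 SkDefs_474
open Gen7_750 Gen8_750 Gen9_750 Xs1_781
open PolyFun_413 (difs difs_cons difs_nil)

universe u

section Gen

variable {k : Type u} [Field k] {F : Type u} [Field F] [Algebra k F] {n : ℕ} (V : SmV k F n)

theorem hh_eq (D : V.G) (i : ℕ) : V.hh D i = hS V.T D i := rfl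

theorem chi_eq_cS (D : V.G) : V.chi D = cS V.T D := rfl

theorem finite_HD (D : V.G) (i : ℕ) : Module.Finite k ((V.fam D).H i) := finite_H (OL V.T D).toLat i

theorem hh_eq_zero_iff (D : V.G) (i : ℕ) : V.hh D i = 0 ↔ Subsingleton ((V.fam D).H i) := by
  have := finite_HD V D i
  exact Module.finrank_zero_iff

theorem gamma_eq (D : V.G) : Γ (V.fam D) = Sec V.T D := by
  ext x
  rw [mem_Γ, mem_Sec]
  exact ⟨fun h I hI => Γ_le (V.fam D) hI (mem_Γ.2 h), fun h i => h _ (Finset.singleton_nonempty i)⟩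

theorem hh_zero (D : V.G) : V.hh D 0 = V.h0 D := by
  have h1 : V.hh D 0 = Module.finrank k (Γ (V.fam D)) := h0_eq (V.fam D)
  rw [h1, gamma_eq]
  rfl

theorem finite_Sec (D : V.G) : Module.Finite k (Sec V.T D) := by
  rw [← gamma_eq]
  exact finite_Γ (S := V.T) D

theorem isSec_iff {D : V.G} {s : F} :
    IsSec V.T D s ↔ ∀ v, s = 0 ∨ 0 ≤ (V.pl.pl v).ord s + D v := by
  constructor
  · intro hs v
    obtain ⟨i, hi⟩ := V.on_ex v
    exact (V.mem_O D (Finset.singleton_nonempty i) s).1 (hs _ (Finset.singleton_nonempty i)) v hi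
  · intro h I hI
    exact (V.mem_O D hI s).2 fun v _ => h v

theorem div_apply (f : F) (hf : f ≠ 0) (v : V.P) : V.div f hf v = (V.pl.pl v).ord f := rfl

/-- the class of `D` is effective -/
def HasSec (D : V.G) : Prop := ∃ s : F, IsSec V.T D s ∧ s ≠ 0

variable {V}

theorem hasSec_iff {D : V.G} : HasSec V D ↔ V.hh D 0 ≠ 0 := by
  refine ⟨fun ⟨s, hs, hs0⟩ h0 => hs0 ?_, fun h => exists_sec (S := V.T) h⟩
  rw [hh_zero] at h0
  have := finite_Sec V D
  have h1 : Subsingleton (Sec V.T D) := Module.finrank_zero_iff.1 h0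
  exact congrArg Subtype.val (Subsingleton.elim (⟨s, (mem_Sec V.T).2 hs⟩ : Sec V.T D) 0)

theorem isSec_one {D : V.G} (hD : V.Eff D) : IsSec V.T D 1 := by
  rw [isSec_iff]
  intro v
  right
  rw [(V.pl.pl v).ord_one, zero_add]
  exact hD v

theorem hasSec_of_eff {D : V.G} (hD : V.Eff D) : HasSec V D := ⟨1, isSec_one hD, one_ne_zero⟩

theorem eff_of_sec {D : V.G} {s : F} (hs : IsSec V.T D s) (hs0 : s ≠ 0) :
    V.Eff (D + V.div s hs0) := by
  intro v
  have h1 := ((isSec_iff V).1 hs v).resolve_left hs0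
  show 0 ≤ D v + (V.pl.pl v).ord s
  omega

theorem HasSec.eff {D : V.G} (h : HasSec V D) : ∃ (s : F) (hs : s ≠ 0), V.Eff (D + V.div s hs) := by
  obtain ⟨s, hs, hs0⟩ := h
  exact ⟨s, hs0, eff_of_sec hs hs0⟩

theorem mem_O_div (D : V.G) {f : F} (hf : f ≠ 0) {I : Finset (Fin (n + 1))} (hI : I.Nonempty)
    (x : F) : x ∈ V.T.O (D + V.div f hf) I ↔ f * x ∈ V.T.O D I := by
  rw [V.mem_O _ hI, V.mem_O _ hI]
  refine forall_congr' fun v => imp_congr_right fun _ => ?_
  by_cases hx : x = 0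
  · simp [hx]
  · rw [(V.pl.pl v).ord_mul hf hx, Finsupp.add_apply, div_apply]
    have : f * x ≠ 0 := mul_ne_zero hf hx
    simp only [hx, this, false_or]
    omega

/-- cohomology only depends on the linear equivalence class -/
theorem hh_div (D : V.G) {f : F} (hf : f ≠ 0) : V.hh (D + V.div f hf) = V.hh D := by
  have hm : (V.fam (D + V.div f hf)).Maps (V.fam D) (LinearMap.mulLeft k f) :=
    fun I hI x hx => (mem_O_div D hf hI x).1 hx
  have := h_of_maps hm (fun a b hab => mul_left_cancel₀ hf hab) fun I hI y hy =>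
    ⟨f⁻¹ * y, (mem_O_div D hf hI _).2 (by rwa [mul_inv_cancel_left₀ hf]),
      mul_inv_cancel_left₀ hf y⟩
  funext i
  exact congrFun this i

theorem chi_div (D : V.G) {f : F} (hf : f ≠ 0) : V.chi (D + V.div f hf) = V.chi D := by
  rw [chi_eq_cS, chi_eq_cS, cS_eq, cS_eq]
  refine Finset.sum_congr rfl fun p _ => ?_
  rw [← hh_eq, ← hh_eq, hh_div]

theorem hasSec_div (D : V.G) {f : F} (hf : f ≠ 0) : HasSec V (D + V.div f hf) ↔ HasSec V D := by
  rw [hasSec_iff, hasSec_iff, hh_div]

theorem fam_le {D E : V.G} (h : ∀ v, D v ≤ E v) : (V.fam D).LE (V.fam E) := by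
  intro I hI x hx
  have h1 := (V.mem_O D hI x).1 hx
  refine (V.mem_O E hI x).2 fun v hv => (h1 v hv).imp_right fun h2 => ?_
  have := h v
  omega

/-- the top cohomology decreases along effective classes -/
theorem htop_le (hn : 0 < n) (a : V.G) {g : V.G} (hg : HasSec V g) : V.hh (a + g) n ≤ V.hh a n := by
  obtain ⟨s, hs, he⟩ := hg.eff
  rw [← hh_div (a + g) hs, add_assoc]
  refine h_top_le hn (M' := OL V.T a) (M := OL V.T (a + (g + V.div s hs))) (xfull_OL a)
    (xfull_OL _) (fam_le (V := V) fun v => ?_)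
  have := he v
  rw [Finsupp.add_apply]
  omega

theorem h0_le (a : V.G) {g : V.G} (hg : HasSec V g) : V.hh a 0 ≤ V.hh (a + g) 0 := by
  obtain ⟨s, hs, hs0⟩ := hg
  exact h0_mono hs hs0 a

theorem HasSec.add {a b : V.G} (ha : HasSec V a) (hb : HasSec V b) : HasSec V (a + b) := by
  have h1 := h0_le a hb
  rw [hasSec_iff] at ha ⊢
  omega

theorem sec_zero_iff {x : F} : x ∈ Sec V.T 0 ↔ ∀ v, x ∈ (V.pl.pl v).O := by
  rw [mem_Sec, isSec_iff]
  refine forall_congr' fun v => ?_
  rw [Finsupp.zero_apply, add_zero]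
  rfl

/-- global regular functions -/
def secAlg (V : SmV k F n) : Subalgebra k F where
  carrier := Sec V.T 0
  mul_mem' := fun ha hb => sec_zero_iff.2 fun v => mul_mem (sec_zero_iff.1 ha v) (sec_zero_iff.1 hb v)
  add_mem' := fun ha hb => add_mem ha hb
  algebraMap_mem' := fun c => by
    show _ ∈ Sec V.T 0
    rw [mem_Sec]
    intro I hI
    rw [V.T.zero hI]
    exact (V.X.A I).algebraMap_mem c

/-- global regular functions are constant -/
theorem const_of_sec [IsAlgClosed k] {x : F} (hx : x ∈ Sec V.T 0) : ∃ c : k, algebraMap k F c = x := by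
  have hfin : Module.Finite k (secAlg V) := finite_Sec V 0
  have h1 : IsIntegral k (⟨x, hx⟩ : secAlg V) := Algebra.IsIntegral.isIntegral _
  have h2 : IsIntegral k x := h1.map (secAlg V).val
  exact minpoly.mem_range_of_degree_eq_one k x (IsAlgClosed.degree_eq_one_of_irreducible k
    (minpoly.irreducible h2))

theorem h0_O [IsAlgClosed k] : V.hh 0 0 = 1 := by
  rw [hh_zero]
  have h1 : Sec V.T 0 = Submodule.span k {(1 : F)} := by
    ext x
    rw [Submodule.mem_span_singleton]
    constructor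
    · intro h
      obtain ⟨c, hc⟩ := const_of_sec h
      exact ⟨c, by rw [← hc, Algebra.smul_def, mul_one]⟩
    · rintro ⟨c, rfl⟩
      rw [Algebra.smul_def, mul_one]
      exact (secAlg V).algebraMap_mem c
  unfold SmV.h0
  rw [h1]
  exact finrank_span_singleton one_ne_zero

end Gen

section Surf

variable {k : Type u} [Field k] {F : Type u} [Field F] [Algebra k F] (V : SmV k F 2)

/-- the intersection number -/
def ip (a b : V.G) : ℤ := V.inter [a, b]

/-- the degree -/
def dg (a : V.G) : ℤ := ip V a V.h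

theorem chi_eq (D : V.G) : V.chi D = V.hh D 0 - V.hh D 1 + V.hh D 2 := by
  rw [chi_eq_cS, cS_eq, Finset.sum_range_succ, Finset.sum_range_succ, Finset.sum_range_one]
  simp only [hh_eq]
  ring

theorem ip_comm (a b : V.G) : ip V a b = ip V b a :=
  Snap_413.inter_perm _ (List.Perm.swap b a [])

/-- Riemann-Roch without canonical class -/
theorem chi_add (a b : V.G) : V.chi (a + b) = V.chi a + V.chi b - V.chi 0 + ip V a b := by
  unfold ip SmV.inter Snap_413.inter
  simp only [difs_cons, difs_nil, fwdDiff, zero_add]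
  ring

theorem ip_div (a : V.G) {f : F} (hf : f ≠ 0) : ip V a (V.div f hf) = 0 := by
  have h1 := chi_add V a (V.div f hf)
  have h2 := chi_div (0 : V.G) hf
  rw [zero_add] at h2
  rw [chi_div, h2] at h1
  omega

variable [Infinite k]

theorem degLE : Snap_413.DegLE 2 V.chi := degLE_cS V.hyp

theorem ip_add_left (a b c : V.G) : ip V (a + b) c = ip V a c + ip V b c :=
  Snap_413.inter_add (degLE V) a b [c] rfl

theorem ip_add_right (a b c : V.G) : ip V a (b + c) = ip V a b + ip V a c := by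
  rw [ip_comm, ip_add_left, ip_comm V b, ip_comm V c]

theorem ip_neg_left (a c : V.G) : ip V (-a) c = - ip V a c :=
  Snap_413.inter_neg (degLE V) a [c] rfl

theorem ip_neg_right (a c : V.G) : ip V a (-c) = - ip V a c := by
  rw [ip_comm, ip_neg_left, ip_comm]

theorem ip_sub_left (a b c : V.G) : ip V (a - b) c = ip V a c - ip V b c :=
  Snap_413.inter_sub (degLE V) a b [c] rfl

theorem ip_sub_right (a b c : V.G) : ip V a (b - c) = ip V a b - ip V a c := by
  rw [ip_comm, ip_sub_left, ip_comm V b, ip_comm V c]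

theorem ip_zsmul_left (m : ℤ) (a c : V.G) : ip V (m • a) c = m * ip V a c :=
  Snap_413.inter_zsmul (degLE V) m a [c] rfl

theorem ip_zsmul_right (m : ℤ) (a c : V.G) : ip V a (m • c) = m * ip V a c := by
  rw [ip_comm, ip_zsmul_left, ip_comm]

theorem ip_nsmul_left (m : ℕ) (a c : V.G) : ip V (m • a) c = m * ip V a c :=
  Snap_413.inter_nsmul (degLE V) m a [c] rfl

theorem ip_nsmul_right (m : ℕ) (a c : V.G) : ip V a (m • c) = m * ip V a c := by
  rw [ip_comm, ip_nsmul_left, ip_comm]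

theorem ip_zero_left (c : V.G) : ip V 0 c = 0 := Snap_413.inter_zero _

theorem ip_zero_right (c : V.G) : ip V c 0 = 0 := by rw [ip_comm, ip_zero_left]

theorem dg_add (a b : V.G) : dg V (a + b) = dg V a + dg V b := ip_add_left V a b _

theorem dg_sub (a b : V.G) : dg V (a - b) = dg V a - dg V b := ip_sub_left V a b _

theorem dg_neg (a : V.G) : dg V (-a) = - dg V a := ip_neg_left V a _

theorem dg_div {f : F} (hf : f ≠ 0) : dg V (V.div f hf) = 0 := by
  unfold dg
  rw [ip_comm, ip_div]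

theorem dg_h_pos : 0 < dg V V.h := Hod2_750.hyp_pos 1 V.hyp

theorem chi_neg (a : V.G) : V.chi a + V.chi (-a) = 2 * V.chi 0 + ip V a a := by
  have h1 := chi_add V a (-a)
  rw [add_neg_cancel, ip_neg_right] at h1
  omega

/-- the Hilbert polynomial of `O(D)` -/
theorem chi_tw (D : V.G) (m : ℤ) :
    V.chi (D + m • V.h) = V.chi D + m * dg V D + (V.chi (m • V.h) - V.chi 0) := by
  rw [chi_add, ip_zsmul_right]
  unfold dg
  ring

theorem chi_twn (D : V.G) (m : ℕ) :
    V.chi (D + m • V.h) = V.chi D + m * dg V D + (V.chi (m • V.h) - V.chi 0) := by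
  rw [chi_add, ip_nsmul_right]
  unfold dg
  ring

/-- `2 χ(m a) = 2 χ(0) + 2 m (χ(a) - χ(0)) + m (m - 1) a²` -/
theorem chi_nsmul (a : V.G) (m : ℕ) : 2 * V.chi (m • a) =
    2 * V.chi 0 + 2 * m * (V.chi a - V.chi 0) + m * (m - 1) * ip V a a := by
  induction m with
  | zero => simp
  | succ m ih =>
    rw [succ_nsmul, chi_add, ip_nsmul_left]
    push_cast
    linear_combination ih

theorem hodge {x : V.G} (hx : dg V x = 0) : ip V x x ≤ 0 := Hod2_750.hodge2 V.hyp hx

/-- `x.h = 0`, `x² = 0` implies that `x` is numerically trivial -/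
theorem hodge_eq {x : V.G} (hx : dg V x = 0) (hxx : ip V x x = 0) (y : V.G) : ip V x y = 0 := by
  have hpos := dg_h_pos V
  -- `z = (h.h) y - (y.h) h` has degree zero
  set z : V.G := dg V V.h • y - dg V y • V.h with hz
  have hz0 : dg V z = 0 := by
    rw [hz, dg_sub]
    unfold dg
    rw [ip_zsmul_left, ip_zsmul_left]
    ring
  have hxz : ip V x z = dg V V.h * ip V x y := by
    rw [hz, ip_sub_right, ip_zsmul_right, ip_zsmul_right]
    have : ip V x V.h = 0 := hx
    rw [this]
    ring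
  have key : ∀ m : ℤ, 2 * m * ip V x z + ip V z z ≤ 0 := by
    intro m
    have h1 : dg V (m • x + z) = 0 := by
      rw [dg_add, hz0]
      unfold dg at hx ⊢
      rw [ip_zsmul_left, hx]
      ring
    have h2 := hodge V h1
    rw [ip_add_left, ip_add_right, ip_add_right, ip_zsmul_left, ip_zsmul_left, ip_zsmul_right,
      ip_zsmul_right, hxx, ip_comm V z x] at h2
    linarith
  have h3 : ip V x z = 0 := by
    by_contra hne
    have h4 := key (ip V x z * (|ip V z z| + 1))
    have h5 : 1 ≤ ip V x z * ip V x z := by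
      have : 0 < ip V x z * ip V x z := mul_self_pos.2 hne
      omega
    have h6 := neg_abs_le (ip V z z)
    have h7 := abs_nonneg (ip V z z)
    nlinarith
  rw [hxz] at h3
  exact (mul_eq_zero.1 h3).resolve_left hpos.ne'

theorem serre (D : V.G) : ∃ e0 : ℕ, ∀ e : ℕ, e0 ≤ e → ∀ p, 0 < p → V.hh (D + e • V.h) p = 0 :=
  serre_hS V.hyp D

theorem chi_eq_h0 (D : V.G) : ∃ e0 : ℕ, ∀ e : ℕ, e0 ≤ e →
    V.chi (D + e • V.h) = V.hh (D + e • V.h) 0 := by
  obtain ⟨e0, he0⟩ := serre V D
  refine ⟨e0, fun e he => ?_⟩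
  rw [chi_eq, he0 e he 1 one_pos, he0 e he 2 two_pos]
  simp

variable {V}

/-- effective classes have degree `≥ 0` -/
theorem dg_nonneg {D : V.G} (hD : HasSec V D) : 0 ≤ dg V D := by
  obtain ⟨e0, he0⟩ := chi_eq_h0 V D
  obtain ⟨e1, he1⟩ := chi_eq_h0 V 0
  by_contra hneg
  push Not at hneg
  set e : ℕ := max (max e0 e1) ((V.chi D - V.chi 0).toNat + 1) with he
  have h1 := he0 e (le_trans (le_max_left _ _) (le_max_left _ _))
  have h2 := he1 e (le_trans (le_max_right _ _) (le_max_left _ _))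
  have h3 := h0_le (e • V.h) hD
  rw [add_comm] at h3
  rw [zero_add] at h2
  have h4 := chi_twn V D e
  have h5 : (V.chi D - V.chi 0).toNat + 1 ≤ e := le_max_right _ _
  have h6 := Int.self_le_toNat (V.chi D - V.chi 0)
  have h7 : ((V.chi D - V.chi 0).toNat : ℤ) + 1 ≤ e := by exact_mod_cast h5
  have h8 : (V.hh (e • V.h) 0 : ℤ) ≤ V.hh (D + e • V.h) 0 := by exact_mod_cast h3
  nlinarith

omit [Infinite k] in
theorem h2_le (a : V.G) {g : V.G} (hg : HasSec V g) : V.hh (a + g) 2 ≤ V.hh a 2 :=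
  htop_le two_pos a hg

theorem hasSec_h : HasSec V V.h := by
  rw [hasSec_iff]
  have := h0_hyp two_pos V.hyp 1
  rw [one_smul, ← hh_eq] at this
  omega

theorem hasSec_nsmul_h (m : ℕ) : HasSec V (m • V.h) := by
  rw [hasSec_iff]
  have := h0_hyp two_pos V.hyp m
  rw [← hh_eq] at this
  omega

end Surf

section PgQ

variable {k : Type u} [Field k] {F : Type u} [Field F] [Algebra k F]

/-- `q = p_g = 0` -/
structure PgQ (V : SmV k F 2) : Prop where
  h1 : V.hh 0 1 = 0
  h2 : V.hh 0 2 = 0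

variable {V : SmV k F 2}

theorem PgQ.of_sub (h1 : Subsingleton ((V.fam 0).H 1)) (h2 : Subsingleton ((V.fam 0).H 2)) :
    PgQ V := ⟨(hh_eq_zero_iff V 0 1).2 h1, (hh_eq_zero_iff V 0 2).2 h2⟩

theorem PgQ.chi_zero [IsAlgClosed k] (h : PgQ V) : V.chi 0 = 1 := by
  rw [chi_eq, h.h1, h.h2, h0_O]
  simp

/-- `h²(b) = 0` for effective classes -/
theorem PgQ.h2_eff (h : PgQ V) {b : V.G} (hb : HasSec V b) : V.hh b 2 = 0 := by
  have h1 := h2_le 0 hb
  rw [zero_add, h.h2] at h1
  omega

theorem PgQ.chi_eff (h : PgQ V) {b : V.G} (hb : HasSec V b) :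
    V.chi b = V.hh b 0 - V.hh b 1 := by
  rw [chi_eq, h.h2_eff hb]
  simp

end PgQ

end Crest.Agent.N265.Ch
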