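import Mathlib
import Crest.Agent.N265.Ch.Num

/-!
# Row 265, CHOICE (helper2): step 2 of notes 130/133

`V : SmV k F 2`, `PgQ V`.  `Choice V`: an effective divisor `b0` with `χ(b0) = N + 1 ≥ 2` of
minimal degree among effective classes with `χ ≥ 2`, and of minimal `χ` among those.

For a splitting `I_{Z₁}(-b₁) ⊕ I_{Z₂}(-b₂)` (`n = |Z₁| + |Z₂|` points) inside the Quot scheme `Q_l`
(Hilbert polynomial of `O(-b0)²` minus `2 - l`):
* `Hilb C b₁ b₂ n l` (equality of Hilbert polynomials) `↔` degrees add up and `n = nTop - l`,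
* `vdim b₁ b₂ n = χ(SS, O²/SS)`; `vdim = 4N + 4 - 2l ↔ Phi b₁ b₂ = Phi b0 b0`,
* `tri`: `χ(b₁) ≤ 1`, or `χ(b₂) ≤ 1`, or `nTop ≤ 1`, or `Top` (`nTop = 2`, `χ(b_i) = N + 1`,
  `χ(±(b₁ - b₂)) = 1`, `b₁ - b₂` numerically trivial); `top_self : Top b0 b0`.
-/

set_option autoImplicit false
set_option linter.unusedSectionVars false

noncomputable section

namespace Crest.Agent.N265.Ch

open Crest.Agent.R274 SkDefs_474

universe u

variable {k : Type u} [Field k] {F : Type u} [Field F] [Algebra k F]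

/-- the choice of `b0` -/
structure Choice (V : SmV k F 2) where
  b0 : V.G
  N : ℕ
  N_pos : 1 ≤ N
  eff : V.Eff b0
  chi_b0 : V.chi b0 = N + 1
  min_dg : ∀ b, HasSec V b → 2 ≤ V.chi b → dg V b0 ≤ dg V b
  min_chi : ∀ b, HasSec V b → 2 ≤ V.chi b → dg V b = dg V b0 → (N : ℤ) + 1 ≤ V.chi b

variable {V : SmV k F 2}

theorem exists_big [Infinite k] (V : SmV k F 2) : ∃ b : V.G, HasSec V b ∧ 2 ≤ V.chi b := by
  obtain ⟨e0, he0⟩ := chi_eq_h0 V 0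
  refine ⟨max e0 1 • V.h, hasSec_nsmul_h _, ?_⟩
  have h1 := he0 (max e0 1) (le_max_left _ _)
  rw [zero_add] at h1
  have h2 := Gen9_750.h0_hyp two_pos V.hyp (max e0 1)
  rw [← hh_eq] at h2
  have h3 := le_max_right e0 1
  omega

theorem exists_choice [Infinite k] (V : SmV k F 2) : Nonempty (Choice V) := by
  classical
  obtain ⟨b, hb, hb2⟩ := exists_big V
  have hex : ∃ d : ℕ, ∃ b, HasSec V b ∧ 2 ≤ V.chi b ∧ dg V b = d :=
    ⟨(dg V b).toNat, b, hb, hb2, (Int.toNat_of_nonneg (dg_nonneg hb)).symm⟩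
  set d := Nat.find hex with hd
  have hmin : ∀ b, HasSec V b → 2 ≤ V.chi b → (d : ℤ) ≤ dg V b := by
    intro b hb hb2
    have h1 := Nat.find_min' hex (m := (dg V b).toNat)
      ⟨b, hb, hb2, (Int.toNat_of_nonneg (dg_nonneg hb)).symm⟩
    have h2 := Int.toNat_of_nonneg (dg_nonneg hb)
    omega
  have hex2 : ∃ N : ℕ, ∃ b, HasSec V b ∧ 2 ≤ V.chi b ∧ dg V b = d ∧ V.chi b = N + 1 := by
    obtain ⟨b, h1, h2, h3⟩ := Nat.find_spec hex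
    exact ⟨(V.chi b - 1).toNat, b, h1, h2, h3, by omega⟩
  obtain ⟨b1, h1, h2, h3, h4⟩ := Nat.find_spec hex2
  obtain ⟨s, hs, he⟩ := h1.eff
  have h5 : dg V (b1 + V.div s hs) = d := by rw [dg_add, dg_div, h3, add_zero]
  refine ⟨⟨b1 + V.div s hs, Nat.find hex2, by omega, he, by rw [chi_div, h4], ?_, ?_⟩⟩
  · intro b hb hb2
    rw [h5]
    exact hmin b hb hb2
  · intro b hb hb2 hbd
    rw [h5] at hbd
    have h6 := Nat.find_min' hex2 (m := (V.chi b - 1).toNat) ⟨b, hb, hb2, hbd, by omega⟩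
    omega

/-- the invariant which fixes the virtual dimension -/
def Phi (V : SmV k F 2) (b₁ b₂ : V.G) : ℤ :=
  2 * V.chi b₁ + 2 * V.chi b₂ - V.chi (b₁ - b₂) - V.chi (b₂ - b₁) - 2 +
    2 * (V.chi (-b₁) + V.chi (-b₂))

/-- `χ(SS, O²) - χ(SS, SS)` for `SS = I_{Z₁}(-b₁) ⊕ I_{Z₂}(-b₂)`, `n = |Z₁| + |Z₂|` -/
def vdim (V : SmV k F 2) (b₁ b₂ : V.G) (n : ℤ) : ℤ :=
  2 * V.chi b₁ + 2 * V.chi b₂ - 2 - V.chi (b₁ - b₂) - V.chi (b₂ - b₁) + 2 * n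

theorem Phi_eq [Infinite k] [IsAlgClosed k] (h : PgQ V) (b₁ b₂ : V.G) :
    Phi V b₁ b₂ = 4 + ip V (b₁ + b₂) (b₁ + b₂) := by
  have h1 := chi_neg V b₁
  have h2 := chi_neg V b₂
  have h3 := chi_neg V (b₁ - b₂)
  rw [neg_sub] at h3
  rw [h.chi_zero] at h1 h2 h3
  rw [ip_sub_left, ip_sub_right, ip_sub_right, ip_comm V b₂ b₁] at h3
  unfold Phi
  rw [ip_add_left, ip_add_right, ip_add_right, ip_comm V b₂ b₁]
  omega

namespace Choice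

variable (C : Choice V)

theorem hasSec : HasSec V C.b0 := hasSec_of_eff C.eff

/-- the number of points on the top level `l = 0` -/
def nTop (b₁ b₂ : V.G) : ℤ := V.chi (-b₁) + V.chi (-b₂) - 2 * V.chi (-C.b0) + 2

/-- the Hilbert polynomial of the kernel sheaves parametrised by `Q_l` -/
def hp (l : ℤ) (m : ℤ) : ℤ := 2 * V.chi (-C.b0 + m • V.h) - (2 - l)

/-- `I_{Z₁}(-b₁) ⊕ I_{Z₂}(-b₂)` with `n` points has Hilbert polynomial `hp l` -/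
def Hilb (b₁ b₂ : V.G) (n l : ℤ) : Prop :=
  ∀ m : ℤ, V.chi (-b₁ + m • V.h) + V.chi (-b₂ + m • V.h) - n = C.hp l m

theorem hilb_iff [Infinite k] {b₁ b₂ : V.G} {n l : ℤ} :
    C.Hilb b₁ b₂ n l ↔ dg V b₁ + dg V b₂ = 2 * dg V C.b0 ∧ n = C.nTop b₁ b₂ - l := by
  unfold Hilb hp nTop
  simp only [chi_tw V (-_), dg_neg]
  constructor
  · intro h
    have h0 := h 0
    have h1 := h 1
    constructor <;> linarith
  · rintro ⟨h1, h2⟩ m
    rw [h2]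
    linear_combination (-m) * h1

/-- two values of the Hilbert polynomial suffice -/
theorem hilb_of_two [Infinite k] {b₁ b₂ : V.G} {n l m₁ m₂ : ℤ} (hm : m₁ ≠ m₂)
    (h₁ : V.chi (-b₁ + m₁ • V.h) + V.chi (-b₂ + m₁ • V.h) - n = C.hp l m₁)
    (h₂ : V.chi (-b₁ + m₂ • V.h) + V.chi (-b₂ + m₂ • V.h) - n = C.hp l m₂) :
    C.Hilb b₁ b₂ n l := by
  rw [hilb_iff]
  unfold hp at h₁ h₂
  unfold nTop
  simp only [chi_tw V (-_), dg_neg] at h₁ h₂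
  have h3 : (m₁ - m₂) * (dg V b₁ + dg V b₂ - 2 * dg V C.b0) = 0 := by linarith
  have h4 := (mul_eq_zero.1 h3).resolve_left (sub_ne_zero.2 hm)
  refine ⟨by linarith, ?_⟩
  have h5 : m₁ * (dg V b₁ + dg V b₂ - 2 * dg V C.b0) = 0 := by rw [h4, mul_zero]
  linarith

theorem nTop_self : C.nTop C.b0 C.b0 = 2 := by
  unfold nTop
  ring

theorem hilb_self [Infinite k] (l : ℤ) : C.Hilb C.b0 C.b0 (2 - l) l :=
  C.hilb_iff.2 ⟨by ring, by rw [nTop_self]⟩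

theorem Phi_self [IsAlgClosed k] (h : PgQ V) :
    Phi V C.b0 C.b0 = 4 * C.N + 4 * V.chi (-C.b0) := by
  unfold Phi
  rw [sub_self, h.chi_zero, C.chi_b0]
  ring

theorem vdim_iff [IsAlgClosed k] (h : PgQ V) {b₁ b₂ : V.G} {l : ℤ} :
    vdim V b₁ b₂ (C.nTop b₁ b₂ - l) = 4 * C.N + 4 - 2 * l ↔ Phi V b₁ b₂ = Phi V C.b0 C.b0 := by
  rw [C.Phi_self h]
  unfold vdim Phi nTop
  constructor <;> intro h1 <;> linarith

theorem vdim_self [IsAlgClosed k] (h : PgQ V) (l : ℤ) :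
    vdim V C.b0 C.b0 (2 - l) = 4 * C.N + 4 - 2 * l := by
  have := (C.vdim_iff h (b₁ := C.b0) (b₂ := C.b0) (l := l)).2 rfl
  rwa [nTop_self] at this

/-- the surviving splittings -/
structure Top (b₁ b₂ : V.G) : Prop where
  nTop : C.nTop b₁ b₂ = 2
  chi₁ : V.chi b₁ = C.N + 1
  chi₂ : V.chi b₂ = C.N + 1
  chi₁₂ : V.chi (b₁ - b₂) = 1
  chi₂₁ : V.chi (b₂ - b₁) = 1
  num : ∀ D, ip V (b₁ - b₂) D = 0

theorem top_self [Infinite k] [IsAlgClosed k] (h : PgQ V) : C.Top C.b0 C.b0 where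
  nTop := C.nTop_self
  chi₁ := C.chi_b0
  chi₂ := C.chi_b0
  chi₁₂ := by rw [sub_self, h.chi_zero]
  chi₂₁ := by rw [sub_self, h.chi_zero]
  num := fun D => by rw [sub_self, ip_zero_left]

/-- **the trichotomy** -/
theorem tri [Infinite k] [IsAlgClosed k] (h : PgQ V) {b₁ b₂ : V.G} (h₁ : HasSec V b₁)
    (h₂ : HasSec V b₂) (hd : dg V b₁ + dg V b₂ = 2 * dg V C.b0)
    (hP : Phi V b₁ b₂ = Phi V C.b0 C.b0) :
    V.chi b₁ ≤ 1 ∨ V.chi b₂ ≤ 1 ∨ C.nTop b₁ b₂ ≤ 1 ∨ C.Top b₁ b₂ := by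
  by_cases c1 : V.chi b₁ ≤ 1
  · exact Or.inl c1
  by_cases c2 : V.chi b₂ ≤ 1
  · exact Or.inr (Or.inl c2)
  by_cases c3 : C.nTop b₁ b₂ ≤ 1
  · exact Or.inr (Or.inr (Or.inl c3))
  refine Or.inr (Or.inr (Or.inr ?_))
  have d1 := C.min_dg b₁ h₁ (by omega)
  have d2 := C.min_dg b₂ h₂ (by omega)
  have e1 := C.min_chi b₁ h₁ (by omega) (by omega)
  have e2 := C.min_chi b₂ h₂ (by omega) (by omega)
  have hx : dg V (b₁ - b₂) = 0 := by rw [dg_sub]; omega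
  have hx2 := hodge V hx
  rw [Phi_eq h, Phi_eq h] at hP
  have n1 := chi_neg V b₁
  have n2 := chi_neg V b₂
  have n0 := chi_neg V C.b0
  have n3 := chi_neg V (b₁ - b₂)
  rw [neg_sub] at n3
  rw [h.chi_zero] at n1 n2 n0 n3
  rw [C.chi_b0] at n0
  have hxx : ip V (b₁ - b₂) (b₁ - b₂) = ip V b₁ b₁ - 2 * ip V b₁ b₂ + ip V b₂ b₂ := by
    rw [ip_sub_left, ip_sub_right, ip_sub_right, ip_comm V b₂ b₁]
    ring
  simp only [ip_add_left, ip_add_right, ip_comm V b₂ b₁] at hP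
  have hn : C.nTop b₁ b₂ = V.chi (-b₁) + V.chi (-b₂) - 2 * V.chi (-C.b0) + 2 := rfl
  have hxx0 : ip V (b₁ - b₂) (b₁ - b₂) = 0 := by omega
  have hnum := hodge_eq V hx hxx0
  have f1 : V.chi b₁ = C.N + 1 := by omega
  have f2 : V.chi b₂ = C.N + 1 := by omega
  have g1 := chi_add V (b₁ - b₂) b₂
  rw [sub_add_cancel, hnum, h.chi_zero] at g1
  exact ⟨by omega, f1, f2, by omega, by omega, hnum⟩

/-- the form used on `Q_l`: Hilbert polynomial and virtual dimension fixed -/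
theorem tri' [Infinite k] [IsAlgClosed k] (h : PgQ V) {b₁ b₂ : V.G} (h₁ : HasSec V b₁)
    (h₂ : HasSec V b₂) {n l : ℤ} (hH : C.Hilb b₁ b₂ n l)
    (hv : vdim V b₁ b₂ n = 4 * C.N + 4 - 2 * l) : n = C.nTop b₁ b₂ - l ∧
    (V.chi b₁ ≤ 1 ∨ V.chi b₂ ≤ 1 ∨ C.nTop b₁ b₂ ≤ 1 ∨ C.Top b₁ b₂) := by
  obtain ⟨hd, hn⟩ := C.hilb_iff.1 hH
  rw [hn, C.vdim_iff h] at hv
  exact ⟨hn, C.tri h h₁ h₂ hd hv⟩

/-- `nTop ≤ 2` unless one of the two classes has `χ ≤ 1` -/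
theorem nTop_le [Infinite k] [IsAlgClosed k] (h : PgQ V) {b₁ b₂ : V.G} (h₁ : HasSec V b₁)
    (h₂ : HasSec V b₂) (hd : dg V b₁ + dg V b₂ = 2 * dg V C.b0)
    (hP : Phi V b₁ b₂ = Phi V C.b0 C.b0) (c₁ : 2 ≤ V.chi b₁) (c₂ : 2 ≤ V.chi b₂) :
    C.nTop b₁ b₂ ≤ 2 := by
  rcases C.tri h h₁ h₂ hd hP with h1 | h1 | h1 | h1
  · omega
  · omega
  · omega
  · exact h1.nTop.le

end Choice

end Crest.Agent.N265.Ch
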